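import Vale.Agent.P226.Step4
import Vale.Agent.P226.AEPart
import Vale.Agent.P226.Sharp

/-!
# The Gaussian propeller conjecture (Khot and Naor)

For every dimension `d` and every number `k` of cells, every measurable partition
`(A_1, ..., A_k)` of `R^d` satisfies `sum_i |int_{A_i} x dgamma_d(x)|^2 <= 9/(8 pi)`, and the value
`9/(8 pi)` is attained as soon as `d >= 2` and `k >= 3`.
`stdGaussian (EuclideanSpace ℝ (Fin d))` is Mathlib's standard Gaussian measure on `R^d`.
-/

open MeasureTheory ProbabilityTheory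

namespace Vale.Agent.Results.P226.Propeller

open Vale.Agent.P226

theorem result :
    (∀ (d k : ℕ) (A : Fin k → Set (EuclideanSpace ℝ (Fin d))),
      (∀ i, MeasurableSet (A i)) → (∀ i j, i ≠ j → Disjoint (A i) (A j)) →
      (⋃ i, A i) = Set.univ →
      ∑ i, ‖∫ x in A i, x ∂(stdGaussian (EuclideanSpace ℝ (Fin d)))‖ ^ 2 ≤ 9 / (8 * Real.pi)) ∧
    (∀ d k : ℕ, 2 ≤ d → 3 ≤ k → ∃ A : Fin k → Set (EuclideanSpace ℝ (Fin d)),
      (∀ i, MeasurableSet (A i)) ∧ (∀ i j, i ≠ j → Disjoint (A i) (A j)) ∧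
      (⋃ i, A i) = Set.univ ∧
      ∑ i, ‖∫ x in A i, x ∂(stdGaussian (EuclideanSpace ℝ (Fin d)))‖ ^ 2
        = 9 / (8 * Real.pi)) := by
  have hle : ∀ (d k : ℕ) (A : Fin k → Set (EuclideanSpace ℝ (Fin d))),
      (∀ i, MeasurableSet (A i)) → (∀ i j, i ≠ j → Disjoint (A i) (A j)) →
      (⋃ i, A i) = Set.univ →
      ∑ i, ‖∫ x in A i, x ∂(stdGaussian (EuclideanSpace ℝ (Fin d)))‖ ^ 2
        ≤ 9 / (8 * Real.pi) := by
    intro d k A hm hd hc
    have hcov : ∀ x, ∃ i, x ∈ A i := fun x => by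
      have : x ∈ ⋃ i, A i := by rw [hc]; exact Set.mem_univ x
      exact Set.mem_iUnion.1 this
    cases k with
    | zero =>
      obtain ⟨i, _⟩ := hcov 0
      exact i.elim0
    | succ k => exact partition_of_ineq (ineq_all k d) A hm hd hcov
  refine ⟨hle, ?_⟩
  intro d k hd hk
  obtain ⟨A, hm, hdis, hcov, hge⟩ := exists_propeller hd hk
  have hun : (⋃ i, A i) = Set.univ := by
    ext x
    simp only [Set.mem_iUnion, Set.mem_univ, iff_true]
    exact hcov x
  exact ⟨A, hm, hdis, hun, le_antisymm (hle d k A hm hdis hun) hge⟩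

end Vale.Agent.Results.P226.Propeller
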