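import Vale.Agent.P226.Step4
import Vale.Agent.P226.AEPart

/-!
# The Gaussian propeller conjecture, partitions up to null sets
-/

open MeasureTheory ProbabilityTheory

namespace Vale.Agent.Results.P226.PropellerAE

open Vale.Agent.P226

/-- `R^d` with its Euclidean structure; `stdGaussian` is Mathlib's standard Gaussian measure. Every
family of `k` null-measurable sets which are pairwise disjoint and cover `R^d` up to null sets
satisfies the propeller inequality. -/
theorem result (d k : ℕ) (A : Fin k → Set (EuclideanSpace ℝ (Fin d)))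
    (hmeas : ∀ i, NullMeasurableSet (A i) (stdGaussian (EuclideanSpace ℝ (Fin d))))
    (hdisj : ∀ i j, i ≠ j → AEDisjoint (stdGaussian (EuclideanSpace ℝ (Fin d))) (A i) (A j))
    (hcover : stdGaussian (EuclideanSpace ℝ (Fin d)) (⋃ i, A i)ᶜ = 0) :
    ∑ i, ‖∫ x in A i, x ∂(stdGaussian (EuclideanSpace ℝ (Fin d)))‖ ^ 2 ≤ 9 / (8 * Real.pi) := by
  cases k with
  | zero =>
    simp only [Finset.univ_eq_empty, Finset.sum_empty]
    positivity
  | succ k => exact partition_ae_of_ineq (ineq_all k d) A hmeas hdisj hcover

end Vale.Agent.Results.P226.PropellerAE
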